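import Mathlib

/-! Boxes of rationals in the exponents of the first primes. -/

namespace Vale.Agent.P130.Sol

noncomputable section

/-- the `i`-th prime -/
def pr (i : ℕ) : ℕ := Nat.nth Nat.Prime i

theorem pr_prime (i : ℕ) : (pr i).Prime := Nat.prime_nth_prime i

theorem pr_inj {i j : ℕ} (h : pr i = pr j) : i = j :=
  Nat.nth_injective Nat.infinite_setOfPred_prime h

theorem pr_zero : pr 0 = 2 := Nat.nth_prime_zero_eq_two

/-- product of prime powers -/
def nval {d : ℕ} (a : Fin d → ℕ) : ℕ := ∏ i : Fin d, pr i.val ^ a i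

theorem nval_pos {d : ℕ} (a : Fin d → ℕ) : 0 < nval a :=
  Finset.prod_pos fun i _ => pow_pos (pr_prime i).pos _

theorem nval_add {d : ℕ} (a b : Fin d → ℕ) : nval (a + b) = nval a * nval b := by
  simp only [nval, Pi.add_apply, pow_add, Finset.prod_mul_distrib]

theorem factorization_nval {d : ℕ} (a : Fin d → ℕ) (i : Fin d) :
    (nval a).factorization (pr i) = a i := by
  rw [nval, Nat.factorization_prod fun (j : Fin d) _ => pow_ne_zero _ (pr_prime j).ne_zero, Finset.sum_apply']
  rw [Finset.sum_eq_single i]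
  · simp [(pr_prime i).factorization_pow]
  · intro j _ hj
    rw [(pr_prime j).factorization_pow, Finsupp.single_apply, if_neg]
    exact fun h => hj (Fin.ext (pr_inj h))
  · simp

theorem nval_injective {d : ℕ} : Function.Injective (nval (d := d)) := fun a b h =>
  funext fun i => by rw [← factorization_nval a i, h, factorization_nval]

/-- sign -/
def sgn (s : Bool) : ℤ := if s then -1 else 1

theorem sgn_ne_zero (s : Bool) : sgn s ≠ 0 := by cases s <;> decide

theorem sgn_xor (s t : Bool) : sgn (xor s t) = sgn s * sgn t := by cases s <;> cases t <;> rfl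

theorem natAbs_sgn (s : Bool) : (sgn s).natAbs = 1 := by cases s <;> rfl

/-- signed product -/
def zval {d : ℕ} (x : Bool × (Fin d → ℕ)) : ℤ := sgn x.1 * (nval x.2 : ℤ)

theorem zval_ne_zero {d : ℕ} (x : Bool × (Fin d → ℕ)) : zval x ≠ 0 :=
  mul_ne_zero (sgn_ne_zero _) (by exact_mod_cast (nval_pos x.2).ne')

theorem natAbs_zval {d : ℕ} (x : Bool × (Fin d → ℕ)) : (zval x).natAbs = nval x.2 := by
  rw [zval, Int.natAbs_mul, natAbs_sgn, one_mul, Int.natAbs_natCast]

theorem zval_neg_iff {d : ℕ} (x : Bool × (Fin d → ℕ)) : zval x < 0 ↔ x.1 = true := by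
  have h : (0:ℤ) < nval x.2 := by exact_mod_cast nval_pos x.2
  obtain ⟨s, a⟩ := x
  simp only at h
  cases s <;> simp [zval, sgn] <;> omega

theorem zval_injective {d : ℕ} : Function.Injective (zval (d := d)) := fun x y h =>
  Prod.ext (Bool.eq_iff_iff.2 (by rw [← zval_neg_iff, h, zval_neg_iff]))
    (nval_injective (by rw [← natAbs_zval, h, natAbs_zval]))

theorem zval_mul {d : ℕ} (x y : Bool × (Fin d → ℕ)) : zval x * zval y = zval (xor x.1 y.1, x.2 + y.2) := by
  simp only [zval, sgn_xor, nval_add, Nat.cast_mul]; ring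

/-- the index box -/
abbrev Idx (d E : ℕ) : Type := Bool × (Fin d → Fin (2 * E + 1))

theorem card_Idx (d E : ℕ) : Fintype.card (Idx d E) = 2 * (2 * E + 1) ^ d := by simp

/-- the base exponents: `P = ∏ pr i ^ e0 i` -/
def e0 (E : ℕ) {d : ℕ} (i : Fin d) : ℕ := if (i:ℕ) = 0 then 2 * E + 1 else 2 * E

/-- the period -/
def PP (d E : ℕ) : ℕ := nval (e0 E : Fin d → ℕ)

/-- integer representatives `kap x = (value of x) * den` -/
def kap {d E : ℕ} (x : Idx d E) : ℤ := zval (x.1, fun i => (x.2 i : ℕ))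

/-- complementary multipliers: `kap x * mult x = PP` -/
def mult {d E : ℕ} (x : Idx d E) : ℤ := zval (x.1, fun i => e0 E i - x.2 i)

theorem e0_ge {d E : ℕ} (x : Idx d E) (i : Fin d) : (x.2 i : ℕ) ≤ e0 E i := by
  have := (x.2 i).isLt
  simp only [e0]; split_ifs <;> omega

theorem kap_mul_mult {d E : ℕ} (x : Idx d E) : kap x * mult x = PP d E := by
  rw [kap, mult, zval_mul, Bool.xor_self, zval, PP]
  simp only [sgn, Bool.false_eq_true, if_false, one_mul]
  congr 2
  funext i
  simp only [Pi.add_apply]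
  have := e0_ge x i
  omega

theorem two_dvd_mult {d E : ℕ} (hd : 0 < d) (x : Idx d E) : 2 ∣ (mult x).natAbs := by
  rw [mult, natAbs_zval]
  have h : pr ((⟨0, hd⟩ : Fin d) : ℕ) = 2 := pr_zero
  have h0 : pr ((⟨0, hd⟩ : Fin d) : ℕ) ^ (e0 E (⟨0, hd⟩ : Fin d) - x.2 ⟨0, hd⟩)
      ∣ nval (fun i => e0 E i - (x.2 i : ℕ)) :=
    Finset.dvd_prod_of_mem (fun i : Fin d => pr i ^ (e0 E i - (x.2 i : ℕ))) (Finset.mem_univ _)
  refine (dvd_pow_self 2 ?_).trans (h ▸ h0)
  have := (x.2 ⟨0, hd⟩).isLt
  simp only [e0, if_true]; omega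

/-- the colour of a multiplier -/
def colOf {d E : ℕ} (n : ℤ) : Idx d E :=
  (decide (n < 0), fun i => ⟨(e0 E i + 2 * E * n.natAbs.factorization (pr i)) % (2 * E + 1),
    Nat.mod_lt _ (by omega)⟩)

/-- multipliers in the class of `1` -/
def IsUnitClass (d E : ℕ) (n : ℤ) : Prop :=
  0 ≤ n ∧ ∀ i : Fin d, n.natAbs.factorization (pr i) % (2 * E + 1) = 0

theorem colOf_mul_mult {d E : ℕ} (x : Idx d E) {n : ℤ} (hn : n ≠ 0) :
    colOf (n * mult x) = x ↔ IsUnitClass d E n := by
  have hm : mult x ≠ 0 := zval_ne_zero _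
  have hfac : ∀ i : Fin d, (n * mult x).natAbs.factorization (pr i)
      = n.natAbs.factorization (pr i) + (e0 E i - (x.2 i : ℕ)) := by
    intro i
    rw [Int.natAbs_mul, Nat.factorization_mul (Int.natAbs_ne_zero.2 hn) (Int.natAbs_ne_zero.2 hm),
      Finsupp.add_apply, mult, natAbs_zval, factorization_nval]
  have hsign : decide (n * mult x < 0) = x.1 ↔ 0 ≤ n := by
    have h1 := zval_neg_iff (x.1, fun i => e0 E i - (x.2 i : ℕ))
    change mult x < 0 ↔ x.1 = true at h1
    cases hx : x.1
    · have hp : 0 < mult x := lt_of_le_of_ne (not_lt.1 fun h => by simpa [hx] using h1.1 h) (Ne.symm hm)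
      rw [decide_eq_false_iff_not, not_lt]
      exact ⟨fun h => nonneg_of_mul_nonneg_left h hp, fun h => mul_nonneg h hp.le⟩
    · have hp : mult x < 0 := h1.2 hx
      rw [decide_eq_true_eq]
      exact ⟨fun h => by nlinarith, fun h => mul_neg_of_pos_of_neg (lt_of_le_of_ne h (Ne.symm hn)) hp⟩
  have hexp : ∀ i : Fin d,
      (e0 E i + 2 * E * (n * mult x).natAbs.factorization (pr i)) % (2 * E + 1) = (x.2 i : ℕ)
      ↔ n.natAbs.factorization (pr i) % (2 * E + 1) = 0 := by
    intro i
    rw [hfac]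
    have hle := e0_ge x i
    have hlt := (x.2 i).isLt
    set f := n.natAbs.factorization (pr i)
    set z := e0 E i - (x.2 i : ℕ)
    have key : ((e0 E i + 2 * E * (f + z) : ℕ) : ZMod (2 * E + 1)) = ((x.2 i : ℕ) : ZMod (2 * E + 1)) - f := by
      have h2 : ((2 * E : ℕ) : ZMod (2 * E + 1)) = -1 := by
        rw [eq_neg_iff_add_eq_zero, ← Nat.cast_add_one, ZMod.natCast_self]
      have hz : e0 E i = (x.2 i : ℕ) + z := by omega
      rw [Nat.cast_add, Nat.cast_mul (2 * E), h2, hz]
      push_cast; ring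
    constructor
    · intro h
      have h' : ((e0 E i + 2 * E * (f + z) : ℕ) : ZMod (2 * E + 1)) = ((x.2 i : ℕ) : ZMod (2 * E + 1)) := by
        rw [← ZMod.natCast_mod, h]
      rw [key, sub_eq_self] at h'
      exact Nat.mod_eq_zero_of_dvd ((ZMod.natCast_eq_zero_iff _ _).1 h')
    · intro h
      have hf : (f : ZMod (2 * E + 1)) = 0 := (ZMod.natCast_eq_zero_iff _ _).2 (Nat.dvd_of_mod_eq_zero h)
      rw [hf, sub_zero] at key
      have h' := congrArg ZMod.val key
      rwa [ZMod.val_natCast, ZMod.val_natCast, Nat.mod_eq_of_lt hlt] at h'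
  constructor
  · intro h
    refine ⟨hsign.1 (congrArg Prod.fst h), fun i => (hexp i).1 ?_⟩
    exact congrArg Fin.val (congrFun (congrArg Prod.snd h) i)
  · intro h
    exact Prod.ext (hsign.2 h.1) (funext fun i => Fin.ext ((hexp i).2 (h.2 i)))

/-- multiplier box -/
def Lam (d R : ℕ) : Finset ℤ :=
  (Finset.univ : Finset (Bool × (Fin d → Fin R))).image fun x => zval (x.1, fun i => (x.2 i : ℕ))

theorem ne_zero_of_mem_Lam {d R : ℕ} {n : ℤ} (h : n ∈ Lam d R) : n ≠ 0 := by
  obtain ⟨x, -, rfl⟩ := Finset.mem_image.1 h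
  exact zval_ne_zero _

theorem card_Lam (d R : ℕ) : (Lam d R).card = 2 * R ^ d := by
  rw [Lam, Finset.card_image_of_injective]
  · simp
  · intro x y h
    have := zval_injective h
    simp only [Prod.mk.injEq] at this
    exact Prod.ext this.1 (funext fun i => Fin.ext (congrFun this.2 i))

theorem card_Lam_sdiff_le {d E R : ℕ} (x : Idx d E) :
    ((Lam d R) \ (Lam d R).image (· * mult x)).card * R ≤ d * (2 * E + 1) * (Lam d R).card := by
  classical
  set B := 2 * E + 1
  set bad : Fin d → Finset (Fin d → Fin R) := fun i =>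
    Finset.univ.filter fun a => ((a i : Fin R) : ℕ) < B
  have hsub : (Lam d R) \ (Lam d R).image (· * mult x) ⊆
      ((Finset.univ : Finset Bool) ×ˢ (Finset.univ.biUnion bad)).image
        fun z => zval (z.1, fun i => (z.2 i : ℕ)) := by
    intro n hn
    rw [Finset.mem_sdiff] at hn
    obtain ⟨z, -, rfl⟩ := Finset.mem_image.1 hn.1
    refine Finset.mem_image.2 ⟨z, Finset.mem_product.2 ⟨Finset.mem_univ _, ?_⟩, rfl⟩
    by_contra hne
    simp only [Finset.mem_biUnion, Finset.mem_univ, true_and, bad, Finset.mem_filter, not_exists, not_lt] at hne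
    apply hn.2
    have hb : ∀ i, e0 E i - (x.2 i : ℕ) ≤ B := fun i => by simp only [e0, B]; split_ifs <;> omega
    refine Finset.mem_image.2 ⟨zval (xor z.1 x.1, fun i => (z.2 i : ℕ) - (e0 E i - (x.2 i : ℕ))), ?_, ?_⟩
    · refine Finset.mem_image.2 ⟨(xor z.1 x.1, fun i => ⟨(z.2 i : ℕ) - (e0 E i - (x.2 i : ℕ)),
        lt_of_le_of_lt (Nat.sub_le _ _) (z.2 i).isLt⟩), Finset.mem_univ _, rfl⟩
    · rw [mult, zval_mul]
      congr 1
      refine Prod.ext (by simp) (funext fun i => ?_)
      simp only [Pi.add_apply]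
      have := hne i
      have := hb i
      omega
  have hbad : ∀ i, (bad i).card * R ≤ B * R ^ d := by
    intro i
    have he : bad i = Fintype.piFinset (fun j => if j = i then Finset.univ.filter (fun r : Fin R => (r:ℕ) < B) else Finset.univ) := by
      ext a
      simp only [bad, Finset.mem_filter, Finset.mem_univ, true_and, Fintype.mem_piFinset]
      constructor
      · intro h j; split_ifs with hj
        · subst hj; simp [h]
        · simp
      · intro h; have := h i; simpa using this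
    have hfil : (Finset.univ.filter (fun r : Fin R => (r:ℕ) < B)).card ≤ B := by
      refine (Finset.card_le_card_of_injOn (fun r : Fin R => (r:ℕ)) (t := Finset.range B) ?_ ?_).trans (by simp)
      · intro r hr; simp at hr ⊢; exact hr
      · intro a _ b _ h; exact Fin.ext h
    rw [he, Fintype.card_piFinset, ← Finset.mul_prod_erase _ _ (Finset.mem_univ i), if_pos rfl,
      Finset.prod_congr rfl (fun j hj => by rw [if_neg (Finset.ne_of_mem_erase hj)] :
        ∀ j ∈ Finset.univ.erase i, _ = (Finset.univ : Finset (Fin R)).card)]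
    simp only [Finset.prod_const, Finset.card_univ, Fintype.card_fin, Finset.card_erase_of_mem (Finset.mem_univ i)]
    have hd : 0 < d := Fin.pos i
    calc (Finset.univ.filter (fun r : Fin R => (r:ℕ) < B)).card * R ^ (d - 1) * R
        ≤ B * R ^ (d - 1) * R := by gcongr
    _ = B * R ^ d := by rw [mul_assoc, ← pow_succ, Nat.sub_add_cancel hd]
  calc ((Lam d R) \ (Lam d R).image (· * mult x)).card * R
      ≤ (2 * ∑ i, (bad i).card) * R := by
        refine Nat.mul_le_mul_right _ ((Finset.card_le_card hsub).trans (Finset.card_image_le.trans ?_))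
        rw [Finset.card_product]
        exact Nat.mul_le_mul (le_of_eq (by simp)) Finset.card_biUnion_le
  _ = 2 * ∑ i, (bad i).card * R := by rw [mul_assoc, Finset.sum_mul]
  _ ≤ 2 * ∑ _i : Fin d, B * R ^ d := Nat.mul_le_mul_left _ (Finset.sum_le_sum fun i _ => hbad i)
  _ = d * B * (Lam d R).card := by rw [card_Lam]; simp; ring

end

end Vale.Agent.P130.Sol
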