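import Vale.Agent.P130.Chirp

/-! Circle lemmas for the solenoid construction: fast variables and grid cells. -/

namespace Vale.Agent.P130.Sol

open MeasureTheory Filter Topology Set
open scoped ENNReal ComplexConjugate

noncomputable section

theorem measurePreserving_mul (h : ℕ) (hh0 : 0 < h) :
    MeasurePreserving (fun θ : UnitAddCircle => h • θ) hm hm := by
  have := Measure.measurePreserving_zsmul hm (n := (h:ℤ)) (by omega)
  simpa using this

theorem fourier_arg_add (n : ℤ) (x y : UnitAddCircle) :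
    fourier n (x + y) = fourier n x * fourier n y := by
  simp only [fourier_eq_ex, smul_add, ex_add]

theorem fourier_arg_neg (n : ℤ) (x : UnitAddCircle) : fourier n (-x) = fourier (-n) x := by
  simp only [fourier_eq_ex, smul_neg, neg_smul]

theorem fourier_arg_nsmul (k : ℤ) (h : ℕ) (θ : UnitAddCircle) :
    fourier k (h • θ) = fourier (k * h) θ := by
  simp only [fourier_eq_ex, mul_smul, natCast_zsmul]

/-- A function of `h θ` is orthogonal to low frequencies. -/
theorem integral_mul_fast_eq_zero (h : ℕ) (hh0 : 0 < h) (φ : UnitAddCircle → ℂ) (m : ℤ)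
    (hm0 : m ≠ 0) (hmh : |m| < h) : ∫ θ, φ (h • θ) * fourier m θ ∂hm = 0 := by
  set τ : UnitAddCircle := (((1:ℝ) / h : ℝ) : UnitAddCircle) with hτ
  have hτ0 : h • τ = 0 := by
    rw [hτ, ← AddCircle.coe_nsmul, nsmul_eq_mul, mul_one_div_cancel (by exact_mod_cast hh0.ne')]
    exact AddCircle.coe_period 1
  have hne : fourier m τ ≠ 1 := by
    intro hc
    rw [hτ, fourier_coe_apply, Complex.exp_eq_one_iff] at hc
    obtain ⟨k, hk⟩ := hc
    have h1 : ((h:ℤ) * k : ℂ) = (m:ℂ) := by
      have hh' : (h:ℂ) ≠ 0 := by exact_mod_cast hh0.ne'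
      push_cast at hk ⊢
      field_simp at hk
      have := Complex.two_pi_I_ne_zero
      linear_combination -hk
    have h2 : (h:ℤ) * k = m := by exact_mod_cast h1
    rcases eq_or_ne k 0 with rfl | hk0
    · simp at h2; exact hm0 h2.symm
    · have := Int.one_le_abs hk0
      have h3 : |m| = (h:ℤ) * |k| := by rw [← h2, abs_mul, Nat.abs_cast]
      nlinarith
  set J := ∫ θ, φ (h • θ) * fourier m θ ∂hm with hJ
  have hshift : J = fourier m τ * J := by
    conv_lhs => rw [hJ, ← integral_add_right_eq_self (fun θ => φ (h • θ) * fourier m θ) τ]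
    rw [hJ, ← integral_const_mul]
    refine integral_congr_ae (Eventually.of_forall fun θ => ?_)
    simp only [smul_add, hτ0, add_zero, fourier_arg_add]
    ring
  by_contra hJ0
  exact hne (mul_right_cancel₀ hJ0 (by rw [one_mul]; exact hshift.symm))

theorem integrable_fast {E : Type*} [NormedAddCommGroup E] (h : ℕ) (hh0 : 0 < h) {φ : UnitAddCircle → E}
    (hφ : Integrable φ hm) : Integrable (fun θ => φ (h • θ)) hm :=
  (measurePreserving_mul h hh0).integrable_comp_of_integrable hφ

theorem integral_fast {E : Type*} [NormedAddCommGroup E] [NormedSpace ℝ E] (h : ℕ) (hh0 : 0 < h)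
    {φ : UnitAddCircle → E} (hφ : Integrable φ hm) : ∫ θ, φ (h • θ) ∂hm = ∫ x, φ x ∂hm := by
  have hmp := measurePreserving_mul h hh0
  conv_rhs => rw [← hmp.map_eq]
  rw [integral_map hmp.measurable.aemeasurable (by rw [hmp.map_eq]; exact hφ.aestronglyMeasurable)]

theorem integral_fast_pair (h : ℕ) (hh0 : 0 < h) {φ : UnitAddCircle → ℂ} (hφ : Integrable φ hm)
    (p q : ℕ) (hp : p < h) (hq : q < h) :
    ∫ θ, φ (h • θ) * fourier ((p:ℤ) - q) θ ∂hm = if p = q then ∫ x, φ x ∂hm else 0 := by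
  split_ifs with hpq
  · subst hpq
    rw [sub_self]
    simp only [fourier_zero, mul_one]
    exact integral_fast h hh0 hφ
  · exact integral_mul_fast_eq_zero h hh0 φ _ (by omega) (by rw [abs_lt]; omega)

/-- index of the grid cell -/
def cidx (G : ℕ) (x : UnitAddCircle) : ℕ := ⌊(G:ℝ) * rep x⌋₊

theorem measurable_cidx (G : ℕ) : Measurable (cidx G) :=
  Nat.measurable_floor.comp (measurable_rep.const_mul _)

theorem cidx_lt (G : ℕ) (hG : 0 < G) (x : UnitAddCircle) : cidx G x < G := by
  have h0 := rep_nonneg x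
  rw [cidx, Nat.floor_lt (by positivity)]
  exact mul_lt_of_lt_one_right (by exact_mod_cast hG) (rep_lt_one x)

theorem cidx_div (G k : ℕ) (hk : 0 < k) (x : UnitAddCircle) : cidx (G * k) x / k = cidx G x := by
  rw [cidx, cidx, Nat.cast_mul, ← Nat.floor_div_natCast]
  congr 1
  have : (k:ℝ) ≠ 0 := by exact_mod_cast hk.ne'
  field_simp

theorem cidx_shift (G : ℕ) (hG : 0 < G) (i : ℕ) (x : UnitAddCircle) :
    cidx G (x + (((i:ℝ) / G : ℝ) : UnitAddCircle)) = (cidx G x + i) % G := by
  have hG' : (0:ℝ) < G := by exact_mod_cast hG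
  conv_lhs => rw [← coe_rep x, ← AddCircle.coe_add]
  set t := rep x with ht
  have ht0 := rep_nonneg x
  set w := ⌊(G:ℝ) * t⌋₊ with hw
  have hw1 : (w:ℝ) ≤ G * t := Nat.floor_le (by positivity)
  have hw2 : (G:ℝ) * t < w + 1 := Nat.lt_floor_add_one _
  have hdec : (((w + i) % G : ℕ) : ℝ) + G * (((w + i) / G : ℕ) : ℝ) = w + i := by
    exact_mod_cast Nat.mod_add_div (w + i) G
  have hr0 : (0:ℝ) ≤ (((w + i) % G : ℕ) : ℝ) := Nat.cast_nonneg _
  have hr1 : (((w + i) % G : ℕ) : ℝ) + 1 ≤ G := by exact_mod_cast Nat.mod_lt (w + i) hG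
  have hfr : (G:ℝ) * Int.fract (t + (i:ℝ) / G) = (((w + i) % G : ℕ) : ℝ) + (G * t - w) := by
    have : Int.fract (t + (i:ℝ) / G) = ((((w + i) % G : ℕ) : ℝ) + (G * t - w)) / G := by
      rw [Int.fract_eq_iff]
      refine ⟨by apply div_nonneg <;> linarith, by rw [div_lt_one hG']; linarith, (((w + i) / G : ℕ) : ℤ), ?_⟩
      rw [Int.cast_natCast]
      field_simp
      linarith
    rw [this]; field_simp
  rw [cidx, rep_coe, hfr, cidx, ← ht, ← hw, Nat.floor_eq_iff (by linarith)]
  constructor <;> linarith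

theorem integral_cell_mul_fast (G Q : ℕ) (hG : 0 < G) (hdvd : G ∣ Q) (A : ℕ → ℝ) {g : UnitAddCircle → ℝ}
    (hg : Integrable g hm) (hQ : 0 < Q) :
    ∫ y, A (cidx G y) * g (Q • y) ∂hm
      = ((∑ j ∈ Finset.range G, A j) / G) * ∫ y, g y ∂hm := by
  have hG' : (G:ℝ) ≠ 0 := by exact_mod_cast hG.ne'
  have hA : Measurable fun y => A (cidx G y) := (measurable_of_countable A).comp (measurable_cidx G)
  have hint : Integrable (fun y => A (cidx G y) * g (Q • y)) hm := by
    refine (integrable_fast Q hQ hg).bdd_mul hA.aestronglyMeasurable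
      (c := ∑ j ∈ Finset.range G, |A j|) (Eventually.of_forall fun y => ?_)
    exact Finset.single_le_sum (f := fun j => |A j|) (fun j _ => abs_nonneg _)
      (Finset.mem_range.2 (cidx_lt G hG y))
  set τ : ℕ → UnitAddCircle := fun i => (((i:ℝ) / G : ℝ) : UnitAddCircle)
  have hτ : ∀ i, Q • τ i = 0 := by
    intro i
    obtain ⟨c, rfl⟩ := hdvd
    show (G * c) • (((i:ℝ) / G : ℝ) : UnitAddCircle) = 0
    rw [← AddCircle.coe_nsmul, AddCircle.coe_eq_zero_iff]
    exact ⟨((c * i : ℕ) : ℤ), by rw [zsmul_one, Int.cast_natCast, nsmul_eq_mul]; push_cast; field_simp⟩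
  have hshift : ∀ i, ∫ y, A (cidx G y) * g (Q • y) ∂hm
      = ∫ y, A ((cidx G y + i) % G) * g (Q • y) ∂hm := by
    intro i
    rw [← integral_add_right_eq_self (fun y => A (cidx G y) * g (Q • y)) (τ i)]
    refine integral_congr_ae (Eventually.of_forall fun y => ?_)
    simp only [cidx_shift G hG, smul_add, hτ, add_zero, τ]
  have hsum : ∀ y, ∑ i ∈ Finset.range G, A ((cidx G y + i) % G) = ∑ j ∈ Finset.range G, A j := by
    intro y
    refine Finset.sum_nbij (fun i => (cidx G y + i) % G)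
      (fun i _ => Finset.mem_range.2 (Nat.mod_lt _ hG)) ?_ ?_ (fun i _ => rfl)
    · intro a ha b hb hab
      simp only [Finset.coe_range, Set.mem_Iio] at ha hb
      have h2 : a % G = b % G := Nat.ModEq.add_left_cancel' (cidx G y) hab
      rwa [Nat.mod_eq_of_lt ha, Nat.mod_eq_of_lt hb] at h2
    · intro j hj
      simp only [Finset.coe_range, Set.mem_Iio] at hj
      refine ⟨(j + G - cidx G y) % G, by simp [Nat.mod_lt _ hG], ?_⟩
      have hlt := cidx_lt G hG y
      simp only [Nat.add_mod_mod]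
      rw [show cidx G y + (j + G - cidx G y) = j + G by omega, Nat.add_mod_right, Nat.mod_eq_of_lt hj]
  have hints : ∀ i ∈ Finset.range G, Integrable (fun y => A ((cidx G y + i) % G) * g (Q • y)) hm := by
    intro i _
    refine (hint.comp_add_right (τ i)).congr (Eventually.of_forall fun y => ?_)
    simp only [cidx_shift G hG, smul_add, hτ, add_zero, τ]
  have key : (G:ℝ) * ∫ y, A (cidx G y) * g (Q • y) ∂hm = (∑ j ∈ Finset.range G, A j) * ∫ y, g y ∂hm :=
    calc (G:ℝ) * ∫ y, A (cidx G y) * g (Q • y) ∂hm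
        = ∑ i ∈ Finset.range G, ∫ y, A ((cidx G y + i) % G) * g (Q • y) ∂hm := by
          rw [← Finset.sum_congr rfl (fun i _ => hshift i), Finset.sum_const, Finset.card_range, nsmul_eq_mul]
    _ = ∫ y, (∑ j ∈ Finset.range G, A j) * g (Q • y) ∂hm := by
          rw [← integral_finsetSum _ hints]
          refine integral_congr_ae (Eventually.of_forall fun y => ?_)
          simp only [← hsum y, Finset.sum_mul]
    _ = _ := by rw [integral_const_mul, integral_fast Q hQ hg]
  field_simp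
  linarith

theorem integral_cell (G : ℕ) (hG : 0 < G) (A : ℕ → ℝ) :
    ∫ y, A (cidx G y) ∂hm = (∑ j ∈ Finset.range G, A j) / G := by
  have h := integral_cell_mul_fast G G hG dvd_rfl A (g := fun _ => (1:ℝ)) (integrable_const 1) hG
  simpa using h

theorem bandI_eq_cell (M σ : ℕ) (hM : 0 < M) (hσ : σ < 2 * M) (x : UnitAddCircle) :
    bandI M (x - (((σ:ℝ) / ((2 * M : ℕ) : ℝ) : ℝ) : UnitAddCircle)) = if cidx (2 * M) x = σ then 1 else 0 := by
  have h2M : (0:ℝ) < ((2 * M : ℕ) : ℝ) := by exact_mod_cast (by omega : 0 < 2 * M)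
  set y := x - (((σ:ℝ) / ((2 * M : ℕ) : ℝ) : ℝ) : UnitAddCircle) with hy
  have hx : x = y + (((σ:ℝ) / ((2 * M : ℕ) : ℝ) : ℝ) : UnitAddCircle) := by rw [hy, sub_add_cancel]
  have hlt := cidx_lt (2 * M) (by omega) y
  rw [hx, cidx_shift (2 * M) (by omega)]
  have hiff : (rep y < 1 / (2 * (M:ℝ))) ↔ cidx (2 * M) y = 0 := by
    rw [cidx, Nat.floor_eq_zero, lt_div_iff₀ (by positivity)]
    push_cast; constructor <;> intro h <;> linarith
  simp only [bandI, hiff]
  congr 1
  rw [eq_iff_iff]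
  constructor
  · intro h; rw [h, Nat.zero_add, Nat.mod_eq_of_lt hσ]
  · intro h
    by_contra hne
    rcases Nat.lt_or_ge (cidx (2 * M) y + σ) (2 * M) with h2 | h2
    · rw [Nat.mod_eq_of_lt h2] at h; omega
    · rw [Nat.mod_eq_sub_mod h2, Nat.mod_eq_of_lt (by omega)] at h; omega

end

end Vale.Agent.P130.Sol
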