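import Vale.Agent.P130.Sol.Boxes
import Vale.Agent.P130.Sol.Circle

/-! An almost equivariant colouring of the circle, by an averaging argument. -/

namespace Vale.Agent.P130.Sol

open MeasureTheory Filter Topology Set
open scoped ENNReal

noncomputable section

/-- rank of a point under a permutation of the cells -/
def keyOf (D : ℕ) (hD : 0 < D) (σ : Equiv.Perm (Fin D)) (n : ℤ) (y : UnitAddCircle) : Fin D :=
  σ ⟨cidx D (n • y) % D, Nat.mod_lt _ hD⟩

/-- a minimiser -/
def amin {D : ℕ} (Λ : Finset ℤ) (f : ℤ → Fin D) : ℤ :=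
  if h : Λ.Nonempty then (Finset.exists_min_image Λ f h).choose else 0

theorem amin_mem {D : ℕ} {Λ : Finset ℤ} (f : ℤ → Fin D) (h : Λ.Nonempty) : amin Λ f ∈ Λ := by
  rw [amin, dif_pos h]; exact (Finset.exists_min_image Λ f h).choose_spec.1

theorem amin_le {D : ℕ} {Λ : Finset ℤ} (f : ℤ → Fin D) {n : ℤ} (hn : n ∈ Λ) : f (amin Λ f) ≤ f n := by
  rw [amin, dif_pos ⟨n, hn⟩]; exact (Finset.exists_min_image Λ f ⟨n, hn⟩).choose_spec.2 n hn

theorem amin_eq {D : ℕ} {Λ : Finset ℤ} (f : ℤ → Fin D) (hinj : Set.InjOn f Λ) {x : ℤ} (hx : x ∈ Λ)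
    (hmin : ∀ n ∈ Λ, f x ≤ f n) : amin Λ f = x :=
  hinj (amin_mem f ⟨x, hx⟩) hx (le_antisymm (amin_le f hx) (hmin _ (amin_mem f ⟨x, hx⟩)))

theorem amin_congr {D : ℕ} (Λ : Finset ℤ) {f g : ℤ → Fin D} (h : ∀ n ∈ Λ, f n = g n) :
    amin Λ f = amin Λ g := by
  have key : ∀ z, (z ∈ Λ ∧ ∀ w ∈ Λ, f z ≤ f w) ↔ (z ∈ Λ ∧ ∀ w ∈ Λ, g z ≤ g w) := fun z =>
    and_congr_right fun hz => forall₂_congr fun w hw => by rw [h z hz, h w hw]
  have key' : (fun z => z ∈ Λ ∧ ∀ w ∈ Λ, f z ≤ f w) = fun z => z ∈ Λ ∧ ∀ w ∈ Λ, g z ≤ g w :=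
    funext fun z => propext (key z)
  simp only [amin]
  split_ifs with hne
  · simp only [key']
  · rfl

theorem card_min_mem {D : ℕ} {U W : Finset ℤ} (hW : W ⊆ U) (c : ℤ → Fin D) (hc : Set.InjOn c U) :
    ((Finset.univ : Finset (Equiv.Perm (Fin D))).filter fun σ => amin U (fun n => σ (c n)) ∈ W).card * U.card
      = W.card * Fintype.card (Equiv.Perm (Fin D)) := by
  classical
  set S : ℤ → Finset (Equiv.Perm (Fin D)) := fun u => Finset.univ.filter fun σ => amin U (fun n => σ (c n)) = u
  have hinj : ∀ σ : Equiv.Perm (Fin D), Set.InjOn (fun n => σ (c n)) (U : Set ℤ) :=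
    fun σ => σ.injective.comp_injOn hc
  have hle : ∀ u ∈ U, ∀ v ∈ U, (S u).card ≤ (S v).card := by
    intro u hu v hv
    refine Finset.card_le_card_of_injOn (fun σ => σ * Equiv.swap (c u) (c v)) ?_ ?_
    · intro σ hσ
      simp only [Finset.coe_filter, S, Finset.mem_univ, true_and, mem_ofPred_eq] at hσ ⊢
      refine amin_eq _ (hinj _) hv fun n hn => ?_
      simp only [Equiv.Perm.mul_apply, Equiv.swap_apply_right]
      have hmin : ∀ m ∈ U, σ (c u) ≤ σ (c m) := fun m hm' => by
        have h1 := amin_le (fun n => σ (c n)) hm'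
        rw [hσ] at h1; exact h1
      by_cases h1 : c n = c u
      · rw [h1, Equiv.swap_apply_left]; exact hmin v hv
      by_cases h2 : c n = c v
      · rw [h2, Equiv.swap_apply_right]
      · rw [Equiv.swap_apply_of_ne_of_ne h1 h2]; exact hmin n hn
    · intro a _ b _ h; exact mul_right_cancel h
  rcases U.eq_empty_or_nonempty with hU | ⟨u0, hu0⟩
  · subst hU; simp [Finset.subset_empty.1 hW]
  have heq : ∀ u ∈ U, (S u).card = (S u0).card := fun u hu => le_antisymm (hle u hu u0 hu0) (hle u0 hu0 u hu)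
  have hfib : ∀ A ⊆ U, ((Finset.univ : Finset (Equiv.Perm (Fin D))).filter
      fun σ => amin U (fun n => σ (c n)) ∈ A).card = A.card * (S u0).card := by
    intro A hA
    refine (Finset.card_eq_sum_card_fiberwise (t := A) (f := fun σ : Equiv.Perm (Fin D) => amin U (fun n => σ (c n)))
      (fun σ hσ => (Finset.mem_filter.1 hσ).2)).trans ?_
    rw [← smul_eq_mul, ← Finset.sum_const]
    refine Finset.sum_congr rfl fun u hu => ?_
    rw [← heq u (hA hu)]
    congr 1
    ext σ
    simp only [Finset.mem_filter, Finset.mem_univ, true_and, S]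
    exact ⟨fun h => h.2, fun h => ⟨h ▸ hu, h⟩⟩
  have htot := hfib U (Finset.Subset.refl U)
  rw [Finset.filter_true_of_mem fun σ _ => amin_mem _ ⟨u0, hu0⟩, Finset.card_univ] at htot
  rw [hfib W hW, htot]; ring

/-- formula for `cidx D (n • y)` on the grid `G` -/
def cellF (G D : ℕ) (n : ℤ) (j : ℕ) : ℕ :=
  if n < 0 then D - 1 - (j / (G / (D * n.natAbs))) % D else (j / (G / (D * n.natAbs))) % D

theorem cidx_nsmul (D k : ℕ) (x : UnitAddCircle) : cidx D (k • x) = cidx (D * k) x % D := by
  rcases Nat.eq_zero_or_pos D with rfl | hD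
  · simp [cidx]
  set t := rep x with ht
  have ht0 := rep_nonneg x
  have hx : k • x = (((k:ℝ) * t : ℝ) : UnitAddCircle) := by
    rw [← nsmul_eq_mul, AddCircle.coe_nsmul, ht, coe_rep]
  rw [hx, cidx, rep_coe, cidx, ← ht, Nat.cast_mul, mul_assoc]
  set u := (k:ℝ) * t
  have hu : 0 ≤ u := by positivity
  have hD' : (0:ℝ) < D := by exact_mod_cast hD
  have hf : (D:ℝ) * u = (D:ℝ) * Int.fract u + ((D * ⌊u⌋₊ : ℕ) : ℝ) := by
    rw [Nat.cast_mul, natCast_floor_eq_intCast_floor hu, ← mul_add, Int.fract_add_floor]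
  rw [hf, Nat.floor_add_natCast (mul_nonneg hD'.le (Int.fract_nonneg _)), Nat.add_mul_mod_self_left,
    Nat.mod_eq_of_lt]
  rw [Nat.floor_lt (mul_nonneg hD'.le (Int.fract_nonneg _))]
  exact mul_lt_of_lt_one_right hD' (Int.fract_lt_one _)

theorem cidx_neg (D : ℕ) (hD : 0 < D) (x : UnitAddCircle) (hx : D • x ≠ 0) :
    cidx D (-x) = D - 1 - cidx D x := by
  set t := rep x with ht
  have ht0 := rep_nonneg x
  have hD' : (0:ℝ) < D := by exact_mod_cast hD
  set w := ⌊(D:ℝ) * t⌋₊ with hw
  have hw1 : (w:ℝ) ≤ D * t := Nat.floor_le (by positivity)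
  have hw2 : (D:ℝ) * t < w + 1 := Nat.lt_floor_add_one _
  have hne : (w:ℝ) ≠ D * t := by
    intro h
    apply hx
    rw [← coe_rep x, ← AddCircle.coe_nsmul, nsmul_eq_mul, ← ht, ← h, AddCircle.coe_eq_zero_iff]
    exact ⟨(w:ℤ), by rw [zsmul_one, Int.cast_natCast]⟩
  have hwD : w + 1 ≤ D := cidx_lt D hD x
  have hc : ((D - 1 - w : ℕ) : ℝ) = D - 1 - w := by
    rw [Nat.cast_sub (by omega), Nat.cast_sub (by omega)]; simp
  have ht1 : t ≠ 0 := by
    intro h; apply hne; rw [h, mul_zero]; simp [hw, h]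
  have hfr : Int.fract (-t) = 1 - t := by
    rw [Int.fract_eq_iff]
    have := rep_lt_one x
    refine ⟨by linarith, ?_, -1, by push_cast; ring⟩
    rcases lt_or_eq_of_le ht0 with h | h
    · linarith
    · exact absurd h.symm ht1
  have hrn : rep (-x) = 1 - t := by
    conv_lhs => rw [← coe_rep x, ← AddCircle.coe_neg, rep_coe]
    rw [← ht, hfr]
  rw [cidx, hrn, cidx, ← ht, ← hw, Nat.floor_eq_iff (by nlinarith [rep_lt_one x]), hc]
  have : (w:ℝ) < D * t := lt_of_le_of_ne hw1 hne
  constructor <;> nlinarith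

theorem cellF_eq (G D : ℕ) (hD : 0 < D) (hG : 0 < G) (n : ℤ) (hn : n ≠ 0) (hdvd : D * n.natAbs ∣ G)
    (y : UnitAddCircle) (hy : (D * n.natAbs) • y ≠ 0) :
    cidx D (n • y) = cellF G D n (cidx G y) := by
  set k := n.natAbs with hk
  have hk0 : 0 < k := Int.natAbs_pos.2 hn
  have hbase : cidx D (k • y) = (cidx G y / (G / (D * k))) % D := by
    rw [cidx_nsmul]
    congr 1
    obtain ⟨c, rfl⟩ := hdvd
    rw [Nat.mul_div_cancel_left _ (Nat.mul_pos hD hk0)]
    exact (cidx_div (D * k) c (Nat.pos_of_mul_pos_left hG) y).symm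
  rw [cellF]
  split_ifs with hneg
  · rw [show n = -(k:ℤ) by omega, neg_zsmul, natCast_zsmul, cidx_neg D hD _ (by rwa [← mul_smul]), hbase]
    simp
  · rw [show n = (k:ℤ) by omega, natCast_zsmul, hbase]
    simp

theorem ae_nsmul_ne_zero (m : ℕ) (hm0 : 0 < m) : ∀ᵐ y ∂hm, m • y ≠ (0 : UnitAddCircle) := by
  have h := (measurePreserving_mul m hm0).quasiMeasurePreserving.ae
    (compl_mem_ae_iff.2 (measure_singleton (μ := hm) (0 : UnitAddCircle)))
  exact h

theorem ae_zsmul {p : UnitAddCircle → Prop} (k : ℤ) (hk : k ≠ 0) (h : ∀ᵐ y ∂hm, p y) :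
    ∀ᵐ y ∂hm, p (k • y) :=
  (Measure.measurePreserving_zsmul hm hk).quasiMeasurePreserving.ae h

theorem measure_collide_le (D : ℕ) (hD : 0 < D) (a b : ℤ) (hab : a ≠ b) :
    hm.real {y : UnitAddCircle | cidx D (a • y) = cidx D (b • y)} ≤ 2 / D := by
  have hD' : (0:ℝ) < D := by exact_mod_cast hD
  have hmp := Measure.measurePreserving_zsmul hm (n := a - b) (sub_ne_zero.2 hab)
  have hsub : {y : UnitAddCircle | cidx D (a • y) = cidx D (b • y)}
      ⊆ (fun y : UnitAddCircle => (a - b) • y) ⁻¹' Metric.closedBall 0 (1 / D) := by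
    intro y hy
    simp only [mem_ofPred_eq, cidx] at hy
    simp only [mem_preimage, Metric.mem_closedBall, dist_zero_right, sub_zsmul, ← sub_eq_add_neg]
    rw [← coe_rep (a • y), ← coe_rep (b • y), ← AddCircle.coe_sub]
    have h1 := rep_nonneg (a • y); have h2 := rep_nonneg (b • y)
    set u := rep (a • y); set v := rep (b • y)
    have e1 := Nat.floor_le (show 0 ≤ (D:ℝ) * u by positivity)
    have e2 := Nat.floor_le (show 0 ≤ (D:ℝ) * v by positivity)
    have e3 := Nat.lt_floor_add_one ((D:ℝ) * u)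
    have e4 := Nat.lt_floor_add_one ((D:ℝ) * v)
    rw [hy] at e1 e3
    refine (QuotientAddGroup.norm_mk_le_norm).trans ?_
    rw [Real.norm_eq_abs, abs_le, neg_le_iff_add_nonneg]
    have h4 : -1 ≤ (D:ℝ) * (u - v) := by linarith
    have h5 : (D:ℝ) * (u - v) ≤ 1 := by linarith
    have h6 : (D:ℝ) * (1 / D) = 1 := by field_simp
    constructor <;> nlinarith
  refine (measureReal_mono hsub).trans ?_
  rw [measureReal_def, hmp.measure_preimage Metric.isClosed_closedBall.measurableSet.nullMeasurableSet, hm_eq_volume,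
    AddCircle.volume_closedBall]
  rw [ENNReal.toReal_ofReal (le_min zero_le_one (by positivity))]
  refine (min_le_right _ _).trans (le_of_eq ?_)
  ring

attribute [local irreducible] cidx rep

/-- the colour of a point -/
def colour (d E R D : ℕ) (hD : 0 < D) (σ : Equiv.Perm (Fin D)) (y : UnitAddCircle) : Idx d E :=
  colOf (amin (Lam d R) fun n => keyOf D hD σ n y)

/-- indicator -/
def ind (p : Prop) [Decidable p] : ℝ := if p then 1 else 0

theorem ind_le_one (p : Prop) [Decidable p] : ind p ≤ 1 := by unfold ind; split_ifs <;> norm_num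

theorem ind_nonneg (p : Prop) [Decidable p] : 0 ≤ ind p := by unfold ind; split_ifs <;> norm_num

theorem abs_ind (p : Prop) [Decidable p] : |ind p| ≤ 1 := by unfold ind; split_ifs <;> norm_num

attribute [local instance] Classical.propDecidable

/-- deviation from exact equivariance -/
def defect (d E R D : ℕ) (hD : 0 < D) (x : Idx d E) (σ : Equiv.Perm (Fin D)) (y : UnitAddCircle) : ℝ :=
  |ind (colour d E R D hD σ y = x)
    - ind (IsUnitClass d E (amin (Lam d R) fun n => keyOf D hD σ n (mult x • y)))|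

theorem measurable_amin_key (Λ : Finset ℤ) (D : ℕ) (hD : 0 < D) (σ : Equiv.Perm (Fin D)) (k : ℤ) :
    Measurable fun y : UnitAddCircle => amin Λ fun n => keyOf D hD σ n (k • y) := by
  have h1 : Measurable fun y : UnitAddCircle => fun i : {i : ℤ // i ∈ Λ} => cidx D ((i:ℤ) • k • y) :=
    measurable_pi_lambda _ fun i => (measurable_cidx D).comp
      ((continuous_zsmul (i:ℤ)).comp (continuous_zsmul k)).measurable
  let Fn : ({i : ℤ // i ∈ Λ} → ℕ) → ℤ := fun v => amin Λ fun n =>
    if h : n ∈ Λ then σ ⟨v ⟨n, h⟩ % D, Nat.mod_lt _ hD⟩ else ⟨0, hD⟩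
  have h2 : Measurable Fn := measurable_of_countable Fn
  have h3 : (fun y : UnitAddCircle => amin Λ fun n => keyOf D hD σ n (k • y))
      = fun y => Fn fun i => cidx D ((i:ℤ) • k • y) := by
    funext y
    refine amin_congr Λ fun n hn => ?_
    rw [dif_pos hn]; rfl
  rw [h3]
  exact h2.comp h1

theorem measurable_colour (d E R D : ℕ) (hD : 0 < D) (σ : Equiv.Perm (Fin D)) :
    Measurable (colour d E R D hD σ) := by
  have h := (measurable_of_countable (colOf (d := d) (E := E))).comp (measurable_amin_key (Lam d R) D hD σ 1)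
  unfold colour
  simpa [Function.comp_def, one_zsmul] using h

theorem defect_le_one (d E R D : ℕ) (hD : 0 < D) (x : Idx d E) (σ : Equiv.Perm (Fin D)) (y : UnitAddCircle) :
    defect d E R D hD x σ y ≤ 1 :=
  abs_sub_le_iff.2 ⟨(sub_le_self _ (ind_nonneg _)).trans (ind_le_one _),
    (sub_le_self _ (ind_nonneg _)).trans (ind_le_one _)⟩

theorem integrable_defect (d E R D : ℕ) (hD : 0 < D) (x : Idx d E) (σ : Equiv.Perm (Fin D)) :
    Integrable (defect d E R D hD x σ) hm := by
  refine Integrable.of_bound (Measurable.aestronglyMeasurable ?_) 1 (Eventually.of_forall fun y => ?_)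
  · unfold defect ind
    refine Measurable.abs (Measurable.sub ?_ ?_)
    · exact Measurable.ite (measurable_colour d E R D hD σ (measurableSet_singleton x)) measurable_const
        measurable_const
    · exact Measurable.ite (measurable_amin_key (Lam d R) D hD σ (mult x)
        (MeasurableSet.of_discrete (s := {n : ℤ | IsUnitClass d E n}))) measurable_const measurable_const
  · rw [Real.norm_eq_abs, abs_of_nonneg (show 0 ≤ defect d E R D hD x σ y from abs_nonneg _)]
    exact defect_le_one ..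

theorem sum_defect_le (d E R D : ℕ) (hR : 0 < R) (hD : 0 < D) (x : Idx d E) (y : UnitAddCircle)
    (hinj : Set.InjOn (fun n : ℤ => cidx D (n • y))
      ((Lam d R ∪ (Lam d R).image (· * mult x) : Finset ℤ) : Set ℤ)) :
    (∑ σ : Equiv.Perm (Fin D), defect d E R D hD x σ y) * R
      ≤ (2 * d * (2 * E + 1) : ℕ) * (Fintype.card (Equiv.Perm (Fin D)) : ℝ) := by
  set Λ := Lam d R
  set Λ' := Λ.image (· * mult x)
  set U := Λ ∪ Λ'
  set W := (Λ \ Λ') ∪ (Λ' \ Λ)
  set c : ℤ → Fin D := fun n => ⟨cidx D (n • y) % D, Nat.mod_lt _ hD⟩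
  have hc : Set.InjOn c (U : Set ℤ) := by
    intro a ha b hb h
    refine hinj ha hb ?_
    have h' := congrArg Fin.val h
    simpa [c, Nat.mod_eq_of_lt (cidx_lt D hD _)] using h'
  have hgood : ∀ σ : Equiv.Perm (Fin D), amin U (fun n => σ (c n)) ∉ W → defect d E R D hD x σ y = 0 := by
    intro σ hσ
    have hkey : ∀ n, keyOf D hD σ n y = σ (c n) := fun n => rfl
    have hne : U.Nonempty := by
      refine Finset.Nonempty.mono Finset.subset_union_left ?_
      rw [← Finset.card_pos, card_Lam]; positivity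
    have hm' := amin_mem (fun n => σ (c n)) hne
    set u := amin U (fun n => σ (c n)) with hu
    have h1 : u ∈ Λ ∧ u ∈ Λ' := by
      simp only [U, W, Finset.mem_union, Finset.mem_sdiff] at hm' hσ
      tauto
    have hinjU : Set.InjOn (fun n => σ (c n)) (U : Set ℤ) := σ.injective.comp_injOn hc
    have hcol : colour d E R D hD σ y = colOf u := by
      rw [colour]; congr 1
      exact amin_eq _ (hinjU.mono (Finset.coe_subset.2 Finset.subset_union_left)) h1.1
        fun n hn => amin_le (fun n => σ (c n)) (Finset.mem_union_left _ hn)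
    obtain ⟨n0, hn0, hn0'⟩ := Finset.mem_image.1 h1.2
    have hk : ∀ n, keyOf D hD σ n (mult x • y) = σ (c (n * mult x)) := fun n => by
      simp only [keyOf, c, mul_zsmul]
    have hsec : (amin Λ fun n => keyOf D hD σ n (mult x • y)) = n0 := by
      refine amin_eq _ (fun a ha b hb h => ?_) hn0 fun n hn => ?_
      · simp only [hk] at h
        exact mul_right_cancel₀ (zval_ne_zero _)
          (hinjU (Finset.mem_coe.2 (Finset.mem_union_right _ (Finset.mem_image_of_mem _ ha)))
            (Finset.mem_coe.2 (Finset.mem_union_right _ (Finset.mem_image_of_mem _ hb))) h)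
      · simp only [hk, hn0']
        exact amin_le (fun n => σ (c n)) (Finset.mem_union_right _ (Finset.mem_image_of_mem _ hn))
    rw [defect, hcol, hsec, ← hn0']
    have := colOf_mul_mult x (ne_zero_of_mem_Lam hn0)
    rw [show ind (colOf (n0 * mult x) = x) = ind (IsUnitClass d E n0) by simp only [ind, this], sub_self, abs_zero]
  have hcount := card_min_mem (W := W) (U := U) (by
    intro n hn
    simp only [W, U, Finset.mem_union, Finset.mem_sdiff] at hn ⊢
    tauto) c hc
  set F := (Finset.univ : Finset (Equiv.Perm (Fin D))).filter fun σ => amin U (fun n => σ (c n)) ∈ W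
  have hsum : ∑ σ : Equiv.Perm (Fin D), defect d E R D hD x σ y ≤ (F.card : ℝ) := by
    rw [← Finset.sum_subset (Finset.subset_univ F) fun σ _ hσ => hgood σ fun h =>
      hσ (Finset.mem_filter.2 ⟨Finset.mem_univ _, h⟩)]
    refine (Finset.sum_le_card_nsmul _ _ 1 fun σ _ => defect_le_one ..).trans_eq (by simp)
  have hΛ' : Λ'.card = Λ.card := Finset.card_image_of_injective _ (mul_left_injective₀ (zval_ne_zero _))
  have hW : W.card * R ≤ 2 * (d * (2 * E + 1) * Λ.card) := by
    have h1 := card_Lam_sdiff_le (R := R) x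
    have h2 : (Λ' \ Λ).card = (Λ \ Λ').card := Finset.card_sdiff_comm hΛ'
    have h3 := Finset.card_union_le (Λ \ Λ') (Λ' \ Λ)
    calc W.card * R ≤ ((Λ \ Λ').card + (Λ' \ Λ).card) * R := Nat.mul_le_mul_right _ h3
    _ = 2 * ((Λ \ Λ').card * R) := by rw [h2]; ring
    _ ≤ _ := Nat.mul_le_mul_left _ h1
  have hUpos : 0 < U.card := by
    refine lt_of_lt_of_le ?_ (Finset.card_le_card Finset.subset_union_left)
    rw [card_Lam]; positivity
  have hfin : F.card * R ≤ 2 * d * (2 * E + 1) * Fintype.card (Equiv.Perm (Fin D)) := by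
    refine Nat.le_of_mul_le_mul_right ?_ hUpos
    calc F.card * R * U.card = (F.card * U.card) * R := by ring
    _ = W.card * R * Fintype.card (Equiv.Perm (Fin D)) := by rw [hcount]; ring
    _ ≤ 2 * (d * (2 * E + 1) * Λ.card) * Fintype.card (Equiv.Perm (Fin D)) := Nat.mul_le_mul_right _ hW
    _ ≤ 2 * (d * (2 * E + 1) * U.card) * Fintype.card (Equiv.Perm (Fin D)) := by
        gcongr; exact Finset.subset_union_left
    _ = _ := by ring
  calc (∑ σ : Equiv.Perm (Fin D), defect d E R D hD x σ y) * R ≤ (F.card : ℝ) * R := by gcongr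
  _ ≤ _ := by exact_mod_cast hfin

theorem exists_perm (d E : ℕ) (η : ℝ) (hη : 0 < η) :
    ∃ (R D : ℕ) (hD : 0 < D) (σ : Equiv.Perm (Fin D)), 0 < R ∧
      ∀ x : Idx d E, ∫ y, defect d E R D hD x σ y ∂hm ≤ η := by
  set K := Fintype.card (Idx d E)
  obtain ⟨R, hR⟩ := exists_nat_gt (2 * ((2 * d * (2 * E + 1) : ℕ) : ℝ) * K / η)
  have hR0 : 0 < R := by
    rcases Nat.eq_zero_or_pos R with rfl | h
    · rw [Nat.cast_zero] at hR
      exact absurd hR (not_lt.2 (by positivity))
    · exact h
  set m := 2 * (2 * R ^ d)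
  obtain ⟨D, hD⟩ := exists_nat_gt (4 * ((m * m : ℕ) : ℝ) * K / η)
  have hD0 : 0 < D := by
    rcases Nat.eq_zero_or_pos D with rfl | h
    · rw [Nat.cast_zero] at hD
      exact absurd hD (not_lt.2 (by positivity))
    · exact h
  set N : ℝ := (Fintype.card (Equiv.Perm (Fin D)) : ℝ)
  have hN : 0 < N := Nat.cast_pos.2 Fintype.card_pos
  have hD' : (0:ℝ) < D := by exact_mod_cast hD0
  have hR' : (0:ℝ) < R := by exact_mod_cast hR0
  have hper : ∀ x : Idx d E, ∑ σ : Equiv.Perm (Fin D), ∫ y, defect d E R D hD0 x σ y ∂hm ≤ N * (η / K) := by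
    intro x
    set U := Lam d R ∪ (Lam d R).image (· * mult x)
    set pairs := (U ×ˢ U).filter fun p => p.1 ≠ p.2
    set col : UnitAddCircle → ℝ := fun y => ∑ p ∈ pairs,
      {z : UnitAddCircle | cidx D (p.1 • z) = cidx D (p.2 • z)}.indicator (fun _ => (1:ℝ)) y
    have hmeas : ∀ p : ℤ × ℤ, MeasurableSet {z : UnitAddCircle | cidx D (p.1 • z) = cidx D (p.2 • z)} := fun p =>
      measurableSet_eq_fun ((measurable_cidx D).comp (continuous_zsmul p.1).measurable)
        ((measurable_cidx D).comp (continuous_zsmul p.2).measurable)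
    have hcoli : Integrable col hm := integrable_finsetSum _ fun p _ => (integrable_const 1).indicator (hmeas p)
    have hpt : ∀ y, ∑ σ : Equiv.Perm (Fin D), defect d E R D hD0 x σ y
        ≤ N * ((2 * d * (2 * E + 1) : ℕ) / R + col y) := by
      intro y
      have hc0 : 0 ≤ col y := Finset.sum_nonneg fun p _ => Set.indicator_nonneg (fun _ _ => zero_le_one) _
      by_cases hinj : Set.InjOn (fun n : ℤ => cidx D (n • y)) (U : Set ℤ)
      · have h := sum_defect_le d E R D hR0 hD0 x y hinj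
        rw [← le_div_iff₀ hR'] at h
        calc _ ≤ _ := h
        _ = N * ((2 * d * (2 * E + 1) : ℕ) / R) := by ring
        _ ≤ _ := by gcongr; linarith
      · simp only [Set.InjOn] at hinj
        push Not at hinj
        obtain ⟨a, ha, b, hb, hab, hne⟩ := hinj
        have h1 : 1 ≤ col y := by
          refine le_trans ?_ (Finset.single_le_sum (f := fun p : ℤ × ℤ =>
            {z : UnitAddCircle | cidx D (p.1 • z) = cidx D (p.2 • z)}.indicator (fun _ => (1:ℝ)) y)
            (fun p _ => Set.indicator_nonneg (fun _ _ => zero_le_one) _)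
            (Finset.mem_filter.2 ⟨Finset.mem_product.2 ⟨ha, hb⟩, hne⟩ : (a, b) ∈ pairs))
          rw [Set.indicator_of_mem (show y ∈ {z : UnitAddCircle | cidx D ((a, b).1 • z) = cidx D ((a, b).2 • z)} from hab)]
        refine (Finset.sum_le_card_nsmul _ _ 1 fun σ _ => defect_le_one ..).trans ?_
        rw [nsmul_eq_mul, mul_one, Finset.card_univ]
        have : (0:ℝ) ≤ (2 * d * (2 * E + 1) : ℕ) / (R:ℝ) := by positivity
        nlinarith
    rw [← integral_finsetSum _ fun σ _ => integrable_defect d E R D hD0 x σ]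
    refine (integral_mono (integrable_finsetSum _ fun σ _ => integrable_defect d E R D hD0 x σ)
      (((integrable_const _).add hcoli).const_mul N) hpt).trans ?_
    rw [integral_const_mul]
    refine mul_le_mul_of_nonneg_left ?_ hN.le
    simp only [Pi.add_apply]
    rw [integral_add (integrable_const _) hcoli, integral_const, probReal_univ, one_smul]
    have hcolint : ∫ y, col y ∂hm ≤ ((m * m : ℕ) : ℝ) * (2 / D) := by
      rw [integral_finsetSum _ fun p _ => (integrable_const 1).indicator (hmeas p)]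
      refine (Finset.sum_le_card_nsmul _ _ (2 / (D:ℝ)) fun p hp => ?_).trans ?_
      · rw [integral_indicator_const _ (hmeas p), smul_eq_mul, mul_one]
        exact measure_collide_le D hD0 _ _ (Finset.mem_filter.1 hp).2
      · rw [nsmul_eq_mul]
        gcongr
        refine (Finset.card_filter_le _ _).trans ?_
        rw [Finset.card_product]
        have hU : U.card ≤ m := by
          refine (Finset.card_union_le _ _).trans ?_
          have := Finset.card_image_le (s := Lam d R) (f := (· * mult x))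
          rw [card_Lam] at this ⊢
          omega
        exact Nat.mul_le_mul hU hU
    have hK : (0:ℝ) < K := by exact_mod_cast Fintype.card_pos_iff.2 ⟨x⟩
    have e1 : ((2 * d * (2 * E + 1) : ℕ) : ℝ) / R ≤ η / K / 2 := by
      rw [div_le_iff₀ hR']
      have := hR.le
      rw [div_le_iff₀ hη] at this
      field_simp
      nlinarith
    have e2 : ((m * m : ℕ) : ℝ) * (2 / D) ≤ η / K / 2 := by
      rw [mul_div, div_le_iff₀ hD']
      have := hD.le
      rw [div_le_iff₀ hη] at this
      field_simp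
      nlinarith
    linarith
  have htot : ∑ σ : Equiv.Perm (Fin D), ∑ x : Idx d E, ∫ y, defect d E R D hD0 x σ y ∂hm
      ≤ ∑ _σ : Equiv.Perm (Fin D), η := by
    rw [Finset.sum_comm]
    refine (Finset.sum_le_sum fun x _ => hper x).trans_eq ?_
    have hK : (K:ℝ) ≠ 0 := by exact_mod_cast Fintype.card_ne_zero
    simp only [Finset.sum_const, Finset.card_univ, nsmul_eq_mul]
    field_simp
    ring
  obtain ⟨σ, -, hσ⟩ := Finset.exists_le_of_sum_le Finset.univ_nonempty htot
  exact ⟨R, D, hD0, σ, hR0, fun x => (Finset.single_le_sum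
    (f := fun x => ∫ y, defect d E R D hD0 x σ y ∂hm) (fun z _ => integral_nonneg fun y => abs_nonneg _)
    (Finset.mem_univ x)).trans hσ⟩

theorem exists_colour (d E : ℕ) (η : ℝ) (hη : 0 < η) :
    ∃ (D' G : ℕ) (J : Finset ℕ) (col : UnitAddCircle → Idx d E) (Acol : ℕ → Idx d E),
      0 < D' ∧ 0 < G ∧ J ⊆ Finset.range D' ∧ Measurable col ∧
      (∀ᵐ y ∂hm, col y = Acol (cidx G y)) ∧
      ∀ x : Idx d E, ∫ y, |ind (col y = x) - ind (cidx D' (mult x • y) ∈ J)| ∂hm ≤ η := by
  obtain ⟨R, D, hD, σ, hR, hσ⟩ := exists_perm d E η hη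
  set G := D * ∏ n ∈ Lam d R, n.natAbs with hG
  have hprod : 0 < ∏ n ∈ Lam d R, n.natAbs :=
    Finset.prod_pos fun n hn => Int.natAbs_pos.2 (ne_zero_of_mem_Lam hn)
  have hG0 : 0 < G := Nat.mul_pos hD hprod
  set gamin : ℕ → ℤ := fun j => amin (Lam d R) fun n => σ ⟨cellF G D n j % D, Nat.mod_lt _ hD⟩
  have hae : ∀ᵐ y ∂hm, (amin (Lam d R) fun n => keyOf D hD σ n y) = gamin (cidx G y) := by
    filter_upwards [ae_nsmul_ne_zero G hG0] with y hy
    refine amin_congr _ fun n hn => ?_
    have hdvd : D * n.natAbs ∣ G := Nat.mul_dvd_mul_left D (Finset.dvd_prod_of_mem (fun n : ℤ => n.natAbs) hn)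
    have hy' : (D * n.natAbs) • y ≠ 0 := by
      intro h; apply hy
      obtain ⟨c, hc⟩ := hdvd
      rw [hc, Nat.mul_comm, mul_smul, h, smul_zero]
    simp only [keyOf, cellF_eq G D hD hG0 n (ne_zero_of_mem_Lam hn) hdvd y hy']
  refine ⟨G, G, (Finset.range G).filter fun j => IsUnitClass d E (gamin j), colour d E R D hD σ,
    fun j => colOf (gamin j), hG0, hG0, Finset.filter_subset _ _, measurable_colour .., ?_, fun x => ?_⟩
  · filter_upwards [hae] with y hy
    rw [colour, hy]
  · refine le_of_eq_of_le ?_ (hσ x)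
    have hq : ∀ᵐ y ∂hm, (amin (Lam d R) fun n => keyOf D hD σ n (mult x • y))
        = gamin (cidx G (mult x • y)) :=
      ae_zsmul (p := fun z => (amin (Lam d R) fun n => keyOf D hD σ n z) = gamin (cidx G z)) (mult x)
        (zval_ne_zero _) hae
    refine integral_congr_ae ?_
    filter_upwards [hq] with y hy
    simp only [defect, hy, ind, Finset.mem_filter, Finset.mem_range, cidx_lt G hG0, true_and]

end

end Vale.Agent.P130.Sol
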