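import Vale.Agent.P130.Sol.Piece
import Vale.Agent.P130.Sol.Colour

/-! The quadratic modulation and the flatness of one slot block. -/

namespace Vale.Agent.P130.Sol

open MeasureTheory Filter Topology Set
open scoped ENNReal ComplexConjugate Real

noncomputable section

/-- `e(t) = exp (2 π i t)` -/
def er (t : ℝ) : ℂ := Complex.exp (((2 * π * t : ℝ) : ℂ) * Complex.I)

theorem er_add (s t : ℝ) : er (s + t) = er s * er t := by
  rw [er, er, er, ← Complex.exp_add]; congr 1; push_cast; ring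

theorem norm_er (t : ℝ) : ‖er t‖ = 1 := Complex.norm_exp_ofReal_mul_I _

theorem conj_er (t : ℝ) : conj (er t) = er (-t) := by
  rw [er, er, ← Complex.exp_conj, map_mul, Complex.conj_ofReal, Complex.conj_I]
  congr 1; push_cast; ring

theorem er_int (k : ℤ) : er k = 1 := by
  rw [er, Complex.exp_eq_one_iff]; exact ⟨k, by push_cast; ring⟩

theorem er_add_int (t : ℝ) (k : ℤ) : er (t + k) = er t := by rw [er_add, er_int, mul_one]

theorem fourier_coe_er (k : ℤ) (t : ℝ) : fourier k (t : UnitAddCircle) = er (k * t) := by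
  rw [fourier_coe_apply, er]; congr 1; push_cast; ring

theorem sum_range_shift {α : Type*} [AddCommGroup α] (g : ℕ → α) (N : ℕ) (hg : ∀ m, g (m + N) = g m) (u : ℕ) :
    ∑ d ∈ Finset.range N, g (u + d) = ∑ d ∈ Finset.range N, g d := by
  induction u with
  | zero => simp
  | succ u ih =>
    rw [← ih]
    have h1 := Finset.sum_range_succ' (fun d => g (u + d)) N
    have h2 := Finset.sum_range_succ (fun d => g (u + d)) N
    rw [h1, hg u, Nat.add_zero] at h2
    refine (Finset.sum_congr rfl fun d _ => ?_).trans (add_right_cancel h2)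
    congr 1; omega

theorem sum_er_mul (N : ℕ) (hN : 0 < N) (d : ℤ) :
    ∑ u ∈ Finset.range N, er ((d:ℝ) * u / N) = if (N:ℤ) ∣ d then (N:ℂ) else 0 := by
  have hN' : (N:ℝ) ≠ 0 := by exact_mod_cast hN.ne'
  have hpow : ∀ u : ℕ, er ((d:ℝ) * u / N) = er ((d:ℝ) / N) ^ u := by
    intro u
    induction u with
    | zero => simp [er]
    | succ u ih =>
      rw [pow_succ, ← ih, ← er_add]; congr 1; push_cast; ring
  simp_rw [hpow]
  split_ifs with h
  · obtain ⟨c, rfl⟩ := h
    have h1 : (((N:ℤ) * c : ℤ) : ℝ) / N = ((c:ℤ):ℝ) := by push_cast; field_simp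
    rw [h1, er_int]; simp
  · have hne : er ((d:ℝ) / N) ≠ 1 := by
      intro h1
      rw [er, Complex.exp_eq_one_iff] at h1
      obtain ⟨c, hc⟩ := h1
      apply h
      refine ⟨c, ?_⟩
      have h2 := congrArg Complex.im hc
      simp at h2
      field_simp at h2
      have hπ := Real.pi_ne_zero
      exact_mod_cast (show (d:ℝ) = N * c by linarith)
    rw [geom_sum_eq hne]
    have h1 : er ((d:ℝ) / N) ^ N = 1 := by
      rw [← hpow, mul_div_assoc, div_self hN', mul_one, er_int]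
    rw [h1, sub_self, zero_div]

/-- quadratic character -/
def qw (N m : ℕ) : ℂ := er ((m:ℝ) ^ 2 / (2 * N))

theorem qw_periodic (N : ℕ) (hN : 0 < N) (h2 : 2 ∣ N) (m : ℕ) : qw N (m + N) = qw N m := by
  obtain ⟨k, hk⟩ := h2
  have hN' : (N:ℝ) ≠ 0 := by exact_mod_cast hN.ne'
  have h : ((m + N : ℕ) : ℝ) ^ 2 / (2 * N) = (m:ℝ) ^ 2 / (2 * N) + ((((m + k : ℕ)) : ℤ) : ℝ) := by
    have hk' : (N:ℝ) = 2 * k := by exact_mod_cast hk
    push_cast; field_simp; rw [hk']; ring
  rw [qw, qw, h, er_add_int]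

/-- coefficient of the quadratic character -/
def qa (N t : ℕ) : ℂ := (N:ℂ)⁻¹ * ∑ u ∈ Finset.range N, qw N u * er ((t:ℝ) * u / N)

theorem norm_qa (N : ℕ) (hN : 0 < N) (h2 : 2 ∣ N) (t : ℕ) : ‖qa N t‖ = 1 / Real.sqrt N := by
  set f : ℕ → ℂ := fun u => qw N u * er ((t:ℝ) * u / N) with hf
  set S := ∑ u ∈ Finset.range N, f u with hS
  have hN' : (N:ℝ) ≠ 0 := by exact_mod_cast hN.ne'
  have hper : ∀ m, f (m + N) = f m := by
    intro m
    simp only [hf, qw_periodic N hN h2]
    congr 1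
    have : (t:ℝ) * ((m + N : ℕ) : ℝ) / N = (t:ℝ) * m / N + ((t:ℤ):ℝ) := by push_cast; field_simp
    rw [this, er_add_int]
  have hff : ∀ u d : ℕ, conj (f u) * f (u + d) = f d * er (((d:ℤ):ℝ) * u / N) := by
    intro u d
    simp only [hf, qw, conj_er, ← er_add]
    congr 1; push_cast; ring
  have key : conj S * S = (N:ℂ) := by
    calc conj S * S = ∑ u ∈ Finset.range N, ∑ d ∈ Finset.range N, conj (f u) * f (u + d) := by
          rw [hS, map_sum, Finset.sum_mul]
          refine Finset.sum_congr rfl fun u _ => ?_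
          rw [← Finset.mul_sum, sum_range_shift f N hper u]
    _ = ∑ d ∈ Finset.range N, f d * ∑ u ∈ Finset.range N, er (((d:ℤ):ℝ) * u / N) := by
          rw [Finset.sum_comm]
          refine Finset.sum_congr rfl fun d _ => ?_
          rw [Finset.mul_sum]
          exact Finset.sum_congr rfl fun u _ => hff u d
    _ = (N:ℂ) := by
          simp_rw [sum_er_mul N hN]
          rw [Finset.sum_eq_single 0]
          · simp [hf, qw, er]
          · intro d hd hne
            rw [if_neg, mul_zero]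
            intro h
            have := Nat.le_of_dvd (Nat.pos_of_ne_zero hne) (Int.natCast_dvd_natCast.1 h)
            exact absurd (Finset.mem_range.1 hd) (not_lt.2 this)
          · intro h; exact absurd (Finset.mem_range.2 hN) h
  have hS2 : ‖S‖ ^ 2 = N := by
    rw [Complex.conj_mul'] at key
    exact_mod_cast key
  rw [qa, norm_mul, norm_inv, Complex.norm_natCast, show ‖S‖ = Real.sqrt N by
    rw [← hS2, Real.sqrt_sq (norm_nonneg S)]]
  have : Real.sqrt N ^ 2 = N := Real.sq_sqrt (Nat.cast_nonneg N)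
  field_simp
  linarith

theorem qw_eq_sum (N : ℕ) (hN : 0 < N) (h2 : 2 ∣ N) (i : ℕ) :
    qw N i = ∑ t ∈ Finset.range N, qa N t * er (-((t:ℝ) * i / N)) := by
  have hN' : (N:ℂ) ≠ 0 := by exact_mod_cast hN.ne'
  have hred : qw N i = qw N (i % N) := by
    induction i using Nat.strong_induction_on with
    | _ i ih =>
      rcases Nat.lt_or_ge i N with h | h
      · rw [Nat.mod_eq_of_lt h]
      · rw [show i = (i - N) + N by omega, qw_periodic N hN h2, Nat.add_mod_right, ih (i - N) (by omega)]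
  calc qw N i = ∑ u ∈ Finset.range N, qw N u * ((N:ℂ)⁻¹ * if (N:ℤ) ∣ (u:ℤ) - i then (N:ℂ) else 0) := by
        rw [hred, Finset.sum_eq_single (i % N)]
        · rw [if_pos, inv_mul_cancel₀ hN', mul_one]
          rw [Int.dvd_iff_emod_eq_zero, Int.natCast_mod, Int.emod_sub_emod, sub_self, Int.zero_emod]
        · intro u hu hne
          rw [if_neg, mul_zero, mul_zero]
          intro h
          apply hne
          have h1 := Int.emod_emod_of_dvd (u:ℤ) (dvd_refl (N:ℤ))
          have h3 : (u:ℤ) % N = (i:ℤ) % N := Int.emod_eq_emod_iff_emod_sub_eq_zero.2 (Int.emod_eq_zero_of_dvd h)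
          have hu' := Finset.mem_range.1 hu
          rw [Int.emod_eq_of_lt (Int.natCast_nonneg u) (by exact_mod_cast hu')] at h3
          exact_mod_cast h3
        · intro h; exact absurd (Finset.mem_range.2 (Nat.mod_lt _ hN)) h
  _ = _ := by
        simp only [qa, Finset.mul_sum, Finset.sum_mul]
        rw [Finset.sum_comm]
        refine Finset.sum_congr rfl fun u _ => ?_
        rw [← sum_er_mul N hN ((u:ℤ) - i), Finset.mul_sum, Finset.mul_sum]
        refine Finset.sum_congr rfl fun t _ => ?_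
        rw [show er ((((u:ℤ) - i : ℤ) : ℝ) * t / N) = er ((t:ℝ) * u / N) * er (-((t:ℝ) * i / N)) by
          rw [← er_add]; congr 1; push_cast; ring]
        ring

/-- phase of position `i` of the block with cell `j`, for the multiplier `n` -/
def bphase (n : ℤ) (D' Lb j i : ℕ) : ℝ :=
  (-((i:ℝ) ^ 2) / (2 * D' * Lb) - (j:ℝ) * i / D' + (i:ℝ) ^ 2 / 2) / n

/-- the slot coefficients of one multiplier -/
def bco (n : ℤ) (D' Lb : ℕ) (jb : ℕ → ℕ) (s : ℕ) : ℂ := er (bphase n D' Lb (jb (s / Lb)) (s % Lb))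

/-- one group of slot blocks -/
def SN (n : ℤ) (D' Lb k : ℕ) (jb : ℕ → ℕ) (y : UnitAddCircle) : ℂ := TS (k * Lb) (bco n D' Lb jb) y

theorem SN_neg (n : ℤ) (D' Lb k : ℕ) (jb : ℕ → ℕ) (y : UnitAddCircle) :
    SN (-n) D' Lb k jb y = conj (SN n D' Lb k jb (-y)) := by
  simp only [SN, TS, map_sum, map_mul]
  refine Finset.sum_congr rfl fun p _ => ?_
  rw [fourier_arg_neg, ← fourier_neg, neg_neg]
  simp only [bco, conj_er, bphase, Int.cast_neg, div_neg]

theorem sum_range_mul_block {α : Type*} [AddCommMonoid α] (f : ℕ → α) (Q h : ℕ) :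
    ∑ p ∈ Finset.range (Q * h), f p = ∑ k ∈ Finset.range Q, ∑ p ∈ Finset.range h, f (k * h + p) := by
  induction Q with
  | zero => simp
  | succ Q ih => rw [Nat.succ_mul, Finset.sum_range_add, ih, Finset.sum_range_succ]

theorem SN_eq_pieces (n : ℕ) (hn : 0 < n) (h2 : 2 ∣ n) (M D' Lb k : ℕ) (hM : 2 * M = n * D') (hD : 0 < D')
    (hL : 0 < Lb) (jb : ℕ → ℕ) (y : UnitAddCircle) :
    SN n D' Lb k jb y = ∑ p ∈ Finset.range k ×ˢ Finset.range n,
      qa n p.2 * fourier ((p.1 * Lb : ℕ) : ℤ) y * chirpSum M Lb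
        (y - ((((jb p.1 + D' * p.2 : ℕ) : ℝ) / ((2 * M : ℕ) : ℝ) : ℝ) : UnitAddCircle)) := by
  rw [SN, TS, sum_range_mul_block, Finset.sum_product]
  refine Finset.sum_congr rfl fun b _ => ?_
  simp only [chirpSum_apply, Finset.mul_sum]
  rw [Finset.sum_comm]
  refine Finset.sum_congr rfl fun i hi => ?_
  have hi' := Finset.mem_range.1 hi
  rw [bco, show (b * Lb + i) / Lb = b by rw [Nat.mul_comm, Nat.mul_add_div hL, Nat.div_eq_of_lt hi', Nat.add_zero],
    show (b * Lb + i) % Lb = i by rw [Nat.mul_comm, Nat.mul_add_mod, Nat.mod_eq_of_lt hi']]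
  set q := fourier ((b * Lb + i : ℕ) : ℤ) y with hq
  have hn' : (n:ℝ) ≠ 0 := by exact_mod_cast hn.ne'
  have hD' : (D':ℝ) ≠ 0 := by exact_mod_cast hD.ne'
  have hM' : (2:ℝ) * M = n * D' := by exact_mod_cast hM
  have hMne : (M:ℝ) ≠ 0 := by intro h; rw [h, mul_zero] at hM'; exact mul_ne_zero hn' hD' hM'.symm
  have hph : bphase n D' Lb (jb b) i
      = (-((i:ℝ) ^ 2) / (4 * M * Lb) + -(i:ℝ) * (jb b / (n * D'))) + (i:ℝ) ^ 2 / (2 * n) := by
    have hL' : (Lb:ℝ) ≠ 0 := by exact_mod_cast hL.ne'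
    rw [bphase, show (4:ℝ) * M = 2 * (n * D') by rw [← hM']; ring]
    push_cast; field_simp; ring
  rw [hph, er_add, show er ((i:ℝ) ^ 2 / (2 * n)) = qw n i from rfl, qw_eq_sum n hn h2, Finset.mul_sum,
    Finset.sum_mul]
  refine Finset.sum_congr rfl fun t _ => ?_
  have hcc : cc M Lb i = er (-((i:ℝ) ^ 2) / (4 * M * Lb)) := by
    rw [cc, er]; congr 2; push_cast; ring
  rw [hcc, sub_eq_add_neg y, fourier_arg_add, ← AddCircle.coe_neg, fourier_coe_er, hq, Nat.cast_add,
    fourier_add, er_add]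
  have harg : er (((i:ℕ):ℤ) * -(((jb b + D' * t : ℕ) : ℝ) / ((2 * M : ℕ) : ℝ)))
      = er (-(i:ℝ) * (jb b / (n * D'))) * er (-((t:ℝ) * i / n)) := by
    rw [← er_add, hM]; congr 1; push_cast; field_simp; ring
  rw [harg]
  push_cast
  ring

theorem flat_SN_pos (n : ℕ) (hn : 0 < n) (h2 : 2 ∣ n) (D' Lb k : ℕ) (hD : 0 < D') (hL : 0 < Lb)
    (jb : ℕ → ℕ) (hjb : ∀ b < k, jb b < D') (hinj : Set.InjOn jb (Set.Iio k)) :
    ∫ y, |‖SN n D' Lb k jb y‖ / Real.sqrt Lb
        - Real.sqrt D' * (if cidx D' (n • y) ∈ (Finset.range k).image jb then 1 else 0)| ∂hm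
      ≤ (k * n : ℕ) * (1 / Real.sqrt n) * edev (n / 2 * D') Lb := by
  set M := n / 2 * D' with hMdef
  have hM : 2 * M = n * D' := by rw [hMdef, ← mul_assoc, Nat.mul_div_cancel' h2]
  have hMpos : 0 < M := Nat.mul_pos (Nat.div_pos (Nat.le_of_dvd hn h2) two_pos) hD
  set I := Finset.range k ×ˢ Finset.range n
  set σ : ℕ × ℕ → ℕ := fun p => jb p.1 + D' * p.2
  have hσ : ∀ p ∈ I, σ p < 2 * M := by
    intro p hp
    obtain ⟨h1, h3⟩ := Finset.mem_product.1 hp
    have h4 := hjb _ (Finset.mem_range.1 h1)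
    have h5 : D' * (p.2 + 1) ≤ D' * n := Nat.mul_le_mul_left _ (Finset.mem_range.1 h3)
    rw [Nat.mul_add, Nat.mul_one] at h5
    rw [hM, Nat.mul_comm n]; simp only [σ]; omega
  have hσinj : Set.InjOn σ (I : Set (ℕ × ℕ)) := by
    intro p hp q hq h
    obtain ⟨hp1, -⟩ := Finset.mem_product.1 hp
    obtain ⟨hq1, -⟩ := Finset.mem_product.1 hq
    have e1 := congrArg (· % D') h
    have e2 := congrArg (· / D') h
    simp only [σ, Nat.add_mul_mod_self_left, Nat.mod_eq_of_lt (hjb _ (Finset.mem_range.1 hp1)),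
      Nat.mod_eq_of_lt (hjb _ (Finset.mem_range.1 hq1)), Nat.add_mul_div_left _ _ hD,
      Nat.div_eq_of_lt (hjb _ (Finset.mem_range.1 hp1)), Nat.div_eq_of_lt (hjb _ (Finset.mem_range.1 hq1)),
      Nat.zero_add] at e1 e2
    exact Prod.ext (hinj (Finset.mem_range.1 hp1) (Finset.mem_range.1 hq1) e1) e2
  have hsqrt : 1 / Real.sqrt n * Real.sqrt (2 * M) = Real.sqrt D' := by
    rw [show (2:ℝ) * M = (n:ℝ) * D' by exact_mod_cast hM, Real.sqrt_mul (Nat.cast_nonneg n)]
    have : Real.sqrt n ≠ 0 := by positivity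
    field_simp
  have hmem : ∀ y : UnitAddCircle,
      cidx D' (n • y) ∈ (Finset.range k).image jb ↔ cidx (2 * M) y ∈ I.image σ := by
    intro y
    rw [cidx_nsmul, hM, Nat.mul_comm n D']
    set w := cidx (D' * n) y
    have hw : w < D' * n := cidx_lt _ (Nat.mul_pos hD hn) y
    simp only [Finset.mem_image, Finset.mem_range, I, σ, Finset.mem_product, Prod.exists]
    constructor
    · rintro ⟨b, hb, hb'⟩
      exact ⟨b, w / D', ⟨hb, Nat.div_lt_of_lt_mul hw⟩, by rw [hb']; exact Nat.mod_add_div w D'⟩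
    · rintro ⟨b, t, ⟨hb, -⟩, h⟩
      exact ⟨b, hb, by rw [← h, Nat.add_mul_mod_self_left, Nat.mod_eq_of_lt (hjb b hb)]⟩
  set c : ℕ × ℕ → UnitAddCircle := fun p => (((σ p : ℝ) / ((2 * M : ℕ) : ℝ) : ℝ) : UnitAddCircle)
  have hpt : ∀ y, |‖SN n D' Lb k jb y‖ / Real.sqrt Lb
        - Real.sqrt D' * (if cidx D' (n • y) ∈ (Finset.range k).image jb then 1 else 0)|
      ≤ ∑ p ∈ I, (1 / Real.sqrt n) * Real.sqrt |dev M Lb (y - c p)| := by
    intro y
    rw [SN_eq_pieces n hn h2 M D' Lb k hM hD hL jb y, ← hsqrt]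
    simp only [hmem y]
    exact pieces_le I M Lb hMpos (fun p => qa n p.2) _ (fun p _ => norm_qa n hn h2 p.2)
      (fun p y => fourier ((p.1 * Lb : ℕ) : ℤ) y) (fun p _ y => norm_fourier_apply _ y) σ hσ hσinj y
  have hint : ∀ p, Integrable (fun y => (1 / Real.sqrt n) * Real.sqrt |dev M Lb (y - c p)|) hm := fun p =>
    ((integrable_sqrt_dev M Lb).comp_sub_right (c p)).const_mul _
  refine (integral_mono_of_nonneg (Eventually.of_forall fun y => abs_nonneg _)
    (integrable_finsetSum _ fun p _ => hint p) (Eventually.of_forall hpt)).trans_eq ?_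
  rw [integral_finsetSum _ fun p _ => hint p]
  simp only [integral_const_mul, integral_sub_right_eq_self (μ := hm) (fun y => Real.sqrt |dev M Lb y|)]
  simp [I, edev]
  ring

theorem flat_SN (n : ℤ) (hn : n ≠ 0) (h2 : 2 ∣ n.natAbs) (D' Lb k : ℕ) (hD : 0 < D') (hL : 0 < Lb)
    (jb : ℕ → ℕ) (hjb : ∀ b < k, jb b < D') (hinj : Set.InjOn jb (Set.Iio k)) :
    ∫ y, |‖SN n D' Lb k jb y‖ / Real.sqrt Lb
        - Real.sqrt D' * (if cidx D' (n • y) ∈ (Finset.range k).image jb then 1 else 0)| ∂hm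
      ≤ (k * n.natAbs : ℕ) * (1 / Real.sqrt n.natAbs) * edev (n.natAbs / 2 * D') Lb := by
  have h := flat_SN_pos n.natAbs (Int.natAbs_pos.2 hn) h2 D' Lb k hD hL jb hjb hinj
  refine le_of_eq_of_le ?_ h
  rcases Int.natAbs_eq n with he | he
  · generalize hm' : n.natAbs = m at he
    subst he
    simp only [natCast_zsmul]
  · generalize hm' : n.natAbs = m at he
    subst he
    rw [← integral_neg_eq_self (fun y => |‖SN (-(m:ℤ)) D' Lb k jb y‖ / Real.sqrt Lb
        - Real.sqrt D' * (if cidx D' ((-(m:ℤ)) • y) ∈ (Finset.range k).image jb then 1 else 0)|) hm]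
    refine integral_congr_ae (Eventually.of_forall fun y => ?_)
    simp only [SN_neg, neg_neg, Complex.norm_conj, zsmul_neg, neg_zsmul, natCast_zsmul]

end

end Vale.Agent.P130.Sol
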