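import Vale.Agent.P130.Sol.Circle

/-! Sums of chirps in disjoint bands, and low-frequency sums against fast variables. -/

namespace Vale.Agent.P130.Sol

open MeasureTheory Filter Topology Set
open scoped ENNReal ComplexConjugate

noncomputable section

/-- trigonometric sum -/
def TS (h : ℕ) (c : ℕ → ℂ) (θ : UnitAddCircle) : ℂ := ∑ p ∈ Finset.range h, c p * fourier (p:ℤ) θ

theorem continuous_TS (h : ℕ) (c : ℕ → ℂ) : Continuous (TS h c) := by unfold TS; fun_prop

theorem integral_fast_TS (h : ℕ) (hh0 : 0 < h) {φ : UnitAddCircle → ℂ} (hφ : Integrable φ hm)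
    (c d : ℕ → ℂ) :
    ∫ θ, φ (h • θ) * (conj (TS h c θ) * TS h d θ) ∂hm
      = (∫ x, φ x ∂hm) * ∑ p ∈ Finset.range h, conj (c p) * d p := by
  have hi : ∀ (a : ℂ) (p q : ℕ), Integrable (fun θ => a * (φ (h • θ) * fourier ((q:ℤ) - p) θ)) hm := by
    intro a p q
    exact ((integrable_fast h hh0 hφ).mul_bdd (fourier _).continuous.aestronglyMeasurable
      (Eventually.of_forall fun θ => (norm_fourier_apply _ θ).le)).const_mul a
  have hpt : ∀ θ, φ (h • θ) * (conj (TS h c θ) * TS h d θ) = ∑ p ∈ Finset.range h, ∑ q ∈ Finset.range h,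
      (conj (c p) * d q) * (φ (h • θ) * fourier ((q:ℤ) - p) θ) := by
    intro θ
    rw [TS, TS, map_sum, Finset.sum_mul_sum, Finset.mul_sum]
    refine Finset.sum_congr rfl fun p _ => ?_
    rw [Finset.mul_sum]
    refine Finset.sum_congr rfl fun q _ => ?_
    rw [map_mul, ← fourier_neg, sub_eq_add_neg, fourier_add]; ring
  simp_rw [hpt]
  rw [integral_finsetSum _ fun p _ => integrable_finsetSum _ fun q _ => hi _ _ _, Finset.mul_sum]
  refine Finset.sum_congr rfl fun p hp => ?_
  rw [integral_finsetSum _ fun q _ => hi _ _ _, Finset.sum_eq_single p]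
  · rw [integral_const_mul, integral_fast_pair h hh0 hφ p p (Finset.mem_range.1 hp) (Finset.mem_range.1 hp),
      if_pos rfl]; ring
  · intro q hq hne
    rw [integral_const_mul, integral_fast_pair h hh0 hφ q p (Finset.mem_range.1 hq) (Finset.mem_range.1 hp),
      if_neg hne, mul_zero]
  · intro hp'; exact absurd hp hp'

theorem integral_normSq_TS (L : ℕ) (hL : 0 < L) (c : ℕ → ℂ) :
    ∫ y, ‖TS L c y‖ ^ 2 ∂hm = ∑ p ∈ Finset.range L, ‖c p‖ ^ 2 := by
  apply Complex.ofReal_injective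
  rw [← integral_complex_ofReal]
  have h := integral_fast_TS L hL (φ := fun _ => (1:ℂ)) (integrable_const 1) c c
  simp only [one_mul, integral_const, probReal_univ, one_smul, Complex.conj_mul'] at h
  push_cast
  simpa using h

/-- the error of one chirp -/
def edev (M L : ℕ) : ℝ := ∫ y, Real.sqrt |dev M L y| ∂hm

theorem integrable_sqrt_dev (M L : ℕ) : Integrable (fun y => Real.sqrt |dev M L y|) hm := by
  have h2 : MemLp (fun x => dev M L x) 2 hm := by simpa using (dev_memLp M L).re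
  refine Integrable.mono' ((h2.integrable one_le_two).abs.add (integrable_const (1:ℝ)))
    ((measurable_dev M L).abs.sqrt).aestronglyMeasurable (Eventually.of_forall fun y => ?_)
  rw [Real.norm_eq_abs, abs_of_nonneg (Real.sqrt_nonneg _)]
  simp only [Pi.add_apply]
  exact (Real.sqrt_le_left (add_nonneg (abs_nonneg _) zero_le_one)).2 (by
    nlinarith [abs_nonneg (dev M L y)])

theorem tendsto_edev (M : ℕ) (hM : 1 ≤ M) : Tendsto (fun L => edev M L) atTop (𝓝 0) := by
  have h0 : ∀ L, 0 ≤ edev M L := fun L => integral_nonneg fun y => Real.sqrt_nonneg _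
  rw [Metric.tendsto_nhds]
  intro ε hε
  set δ := ε / 2 with hδ
  have hδ0 : 0 < δ := by positivity
  have h1 := (tendsto_integral_dev_sq M hM).eventually (gt_mem_nhds (show (0:ℝ) < δ ^ 4 by positivity))
  filter_upwards [h1] with L hL
  have hpt : ∀ y, Real.sqrt |dev M L y| ≤ δ + dev M L y ^ 2 / δ ^ 3 := by
    intro y
    have ha := abs_nonneg (dev M L y)
    set a := |dev M L y| with ha'
    have hsq : dev M L y ^ 2 = a ^ 2 := by rw [ha', sq_abs]
    rw [hsq]
    set b := Real.sqrt a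
    have hb0 : 0 ≤ b := Real.sqrt_nonneg a
    have hb : a = b ^ 2 := (Real.sq_sqrt ha).symm
    rw [hb]
    rcases le_or_gt b δ with h | h
    · have : 0 ≤ (b ^ 2) ^ 2 / δ ^ 3 := by positivity
      linarith
    · have h3 : b ≤ (b ^ 2) ^ 2 / δ ^ 3 := by
        rw [le_div_iff₀ (by positivity)]
        calc b * δ ^ 3 ≤ b * b ^ 3 := by gcongr
        _ = (b ^ 2) ^ 2 := by ring
      linarith
  have hd2 : Integrable (fun y => dev M L y ^ 2) hm := by
    have h2 : MemLp (fun x => dev M L x) 2 hm := by simpa using (dev_memLp M L).re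
    exact h2.integrable_sq
  have hle : edev M L ≤ δ + (∫ y, dev M L y ^ 2 ∂hm) / δ ^ 3 := by
    refine (integral_mono (integrable_sqrt_dev M L) ((integrable_const δ).add (hd2.div_const _)) hpt).trans_eq ?_
    simp only [Pi.add_apply]
    rw [integral_add (integrable_const δ) (hd2.div_const _), integral_const, probReal_univ, one_smul]
    exact congrArg _ (integral_div _ _)
  rw [Real.dist_eq, sub_zero, abs_of_nonneg (h0 L)]
  have : (∫ y, dev M L y ^ 2 ∂hm) / δ ^ 3 < δ := by
    rw [div_lt_iff₀ (by positivity)]; linarith [show δ * δ ^ 3 = δ ^ 4 by ring]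
  linarith

theorem abs_norm_chirp_sub_le (M L : ℕ) (y : UnitAddCircle) :
    |‖chirpSum M L y‖ / Real.sqrt L - Real.sqrt (2 * M) * bandI M y| ≤ Real.sqrt |dev M L y| := by
  set a := ‖chirpSum M L y‖ / Real.sqrt L with ha
  set b := Real.sqrt (2 * M) * bandI M y with hb
  have ha0 : 0 ≤ a := by positivity
  have hb0 : 0 ≤ b := by
    rw [hb]; refine mul_nonneg (Real.sqrt_nonneg _) ?_
    unfold bandI; split_ifs <;> norm_num
  have hdev : dev M L y = a ^ 2 - b ^ 2 := by
    rw [dev, ha, hb, div_pow, Real.sq_sqrt (Nat.cast_nonneg L), mul_pow, Real.sq_sqrt (by positivity)]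
    have : bandI M y ^ 2 = bandI M y := by unfold bandI; split_ifs <;> norm_num
    rw [this]
  refine Real.le_sqrt_of_sq_le ?_
  rw [hdev, sq_sub_sq, abs_mul, abs_of_nonneg (add_nonneg ha0 hb0), sq]
  exact mul_le_mul_of_nonneg_right
    ((abs_sub _ _).trans_eq (by rw [abs_of_nonneg ha0, abs_of_nonneg hb0])) (abs_nonneg _)

theorem pieces_le {ι : Type*} (I : Finset ι) (M L : ℕ) (hM : 0 < M) (a : ι → ℂ) (α : ℝ)
    (ha : ∀ i ∈ I, ‖a i‖ = α) (z : ι → UnitAddCircle → ℂ) (hz : ∀ i ∈ I, ∀ y, ‖z i y‖ = 1)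
    (σ : ι → ℕ) (hσ : ∀ i ∈ I, σ i < 2 * M) (hinj : Set.InjOn σ (I : Set ι)) (y : UnitAddCircle) :
    |‖∑ i ∈ I, a i * z i y * chirpSum M L (y - (((σ i : ℝ) / ((2 * M : ℕ) : ℝ) : ℝ) : UnitAddCircle))‖ / Real.sqrt L
        - α * Real.sqrt (2 * M) * (if cidx (2 * M) y ∈ I.image σ then 1 else 0)|
      ≤ ∑ i ∈ I, α * Real.sqrt |dev M L (y - (((σ i : ℝ) / ((2 * M : ℕ) : ℝ) : ℝ) : UnitAddCircle))| := by
  classical
  set c : ι → UnitAddCircle := fun i => (((σ i : ℝ) / ((2 * M : ℕ) : ℝ) : ℝ) : UnitAddCircle) with hc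
  set u : ι → ℂ := fun i => a i * z i y * chirpSum M L (y - c i) / (Real.sqrt L : ℂ) with hu
  set b : ι → ℝ := fun i => α * Real.sqrt (2 * M) * bandI M (y - c i) with hb
  set ph : ι → ℂ := fun i => if u i = 0 then 1 else u i / (‖u i‖ : ℂ) with hph
  have hphn : ∀ i, ‖ph i‖ = 1 := by
    intro i; simp only [hph]; split_ifs with h
    · simp
    · rw [norm_div, Complex.norm_real, norm_norm, div_self (norm_ne_zero_iff.2 h)]
  have hphu : ∀ i, (‖u i‖ : ℂ) * ph i = u i := by
    intro i; simp only [hph]; split_ifs with h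
    · simp [h]
    · rw [mul_div_cancel₀]; simp [h]
  have hun : ∀ i ∈ I, ‖u i‖ = α * (‖chirpSum M L (y - c i)‖ / Real.sqrt L) := by
    intro i hi
    simp only [hu, norm_div, norm_mul, ha i hi, hz i hi y, Complex.norm_real, Real.norm_eq_abs,
      abs_of_nonneg (Real.sqrt_nonneg _), mul_one]
    ring
  have hsum : ‖∑ i ∈ I, u i‖ = ‖∑ i ∈ I, a i * z i y * chirpSum M L (y - c i)‖ / Real.sqrt L := by
    simp only [hu, ← Finset.sum_div, norm_div, Complex.norm_real, Real.norm_eq_abs,
      abs_of_nonneg (Real.sqrt_nonneg _)]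
  have hbI : ∀ i ∈ I, b i = α * Real.sqrt (2 * M) * (if cidx (2 * M) y = σ i then 1 else 0) := by
    intro i hi
    simp only [hb, hc, bandI_eq_cell M (σ i) hM (hσ i hi)]
  have hv : ‖∑ i ∈ I, (b i : ℂ) * ph i‖
      = α * Real.sqrt (2 * M) * (if cidx (2 * M) y ∈ I.image σ then 1 else 0) := by
    by_cases h : cidx (2 * M) y ∈ I.image σ
    · obtain ⟨i0, hi0, hi0'⟩ := Finset.mem_image.1 h
      rw [if_pos h, mul_one, Finset.sum_eq_single_of_mem i0 hi0, norm_mul, hphn, mul_one, hbI i0 hi0,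
        if_pos hi0'.symm, mul_one, Complex.norm_real, Real.norm_eq_abs, abs_of_nonneg]
      · exact mul_nonneg (by rw [← ha i0 hi0]; exact norm_nonneg _) (Real.sqrt_nonneg _)
      · intro i hi hne
        rw [hbI i hi, if_neg fun e => hne (hinj hi hi0 (e.symm.trans hi0'.symm)), mul_zero,
          Complex.ofReal_zero, zero_mul]
    · rw [if_neg h, mul_zero, norm_eq_zero]
      refine Finset.sum_eq_zero fun i hi => ?_
      rw [hbI i hi, if_neg fun (e : cidx (2 * M) y = σ i) => h (Finset.mem_image.2 ⟨i, hi, e.symm⟩),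
        mul_zero, Complex.ofReal_zero, zero_mul]
  rw [← hsum, ← hv]
  refine (abs_norm_sub_norm_le _ _).trans ?_
  rw [← Finset.sum_sub_distrib]
  refine (norm_sum_le _ _).trans (Finset.sum_le_sum fun i hi => ?_)
  conv_lhs => rw [← hphu i, ← sub_mul, norm_mul, hphn, mul_one, ← Complex.ofReal_sub, Complex.norm_real,
    Real.norm_eq_abs, hun i hi]
  simp only [hb, mul_assoc, ← mul_sub, abs_mul]
  rw [abs_of_nonneg (show 0 ≤ α by rw [← ha i hi]; exact norm_nonneg _)]
  exact mul_le_mul_of_nonneg_left (abs_norm_chirp_sub_le M L _) (by rw [← ha i hi]; exact norm_nonneg _)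

end

end Vale.Agent.P130.Sol
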